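import Vale.Agent.Lib.P361.SharpB

open Filter Topology Set
open Vale.Agent.P361Lib

/-- For spin `S = n/2`: the pressures `p β` exist, they are convex, they have a right derivative at
`h = 0`, and `β^(3/2) (S - ∂⁺ p β 0)` is eventually, as `β → ∞`, above any number below the
coefficient `ζ(3/2) / (8 π^(3/2) S^(3/2))` of Bloch's law. -/
theorem Vale.Agent.Results.P361.A_BlochSharpLowerBound.result :
    ∀ n : ℕ, 1 ≤ n → ∃ p : ℝ → ℝ → ℝ,
      (∀ β : ℝ, 0 < β → (∀ h : ℝ, Tendsto (fun N : ℕ => pressureN n N β h) atTop (𝓝 (p β h))) ∧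
        ConvexOn ℝ univ (p β) ∧ DifferentiableWithinAt ℝ (p β) (Ioi 0) 0) ∧
      ∀ ε : ℝ, 0 < ε → ∀ᶠ β : ℝ in atTop,
        (riemannZeta (3 / 2 : ℂ)).re / (8 * Real.pi ^ (3 / 2 : ℝ) * ((n : ℝ) / 2) ^ (3 / 2 : ℝ)) - ε
          ≤ β ^ (3 / 2 : ℝ) * ((n : ℝ) / 2 - derivWithin (p β) (Ioi 0) 0) := by
  intro n hn
  obtain ⟨p, hp⟩ := exists_pressure_family n
  refine ⟨p, fun β hβ => ?_, fun ε hε => eventually_deficit_zero hn hp hε⟩
  have hconv := convexOn_limit hβ (hp β hβ)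
  have hint : (0 : ℝ) ∈ interior (univ : Set ℝ) := by simp
  exact ⟨hp β hβ, hconv, hconv.differentiableWithinAt_Ioi_of_mem_interior hint⟩
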