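import Vale.Agent.Lib.P361.Limit

open Filter Topology
open Vale.Agent.P361Lib

/-- For spin `S = n/2` and inverse temperature `β > 0` the pressure `p` exists as the limit of the
finite-volume pressures for every field `h`, it is convex, its right derivative at `h = 0` exists,
and when `β n ≥ 1` this right derivative is at most `S - (1/50112) (β n)^(-3/2)`. -/
theorem Vale.Agent.Results.P361.BlochOneSided.result :
    ∀ (n : ℕ) (β : ℝ), 1 ≤ n → 0 < β →
      ∃ p : ℝ → ℝ, (∀ h : ℝ, Tendsto (fun N : ℕ => pressureN n N β h) atTop (𝓝 (p h))) ∧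
        ConvexOn ℝ Set.univ p ∧ DifferentiableWithinAt ℝ p (Set.Ioi 0) 0 ∧
        (1 ≤ β * n →
          derivWithin p (Set.Ioi 0) 0 ≤ (n : ℝ) / 2 - (1 / 50112) * (β * n) ^ (-(3 / 2) : ℝ)) := by
  intro n β hn hβ
  obtain ⟨p, hp⟩ := exists_pressure_function n hβ
  have hconv := convexOn_limit hβ hp
  have hint : (0 : ℝ) ∈ interior (Set.univ : Set ℝ) := by simp
  exact ⟨p, hp, hconv, hconv.differentiableWithinAt_Ioi_of_mem_interior hint,
    fun hnβ => (main_bound hn hβ hnβ hp).2⟩
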