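import Vale.Agent.Results.P361.A_BlochScaledField
import Vale.Agent.Results.P361.A_BlochSharpLowerBound
import Vale.Agent.Results.P361.BlochOneSided

open Filter Topology Set
open Vale.Agent.P361Lib

namespace Vale.Agent.Results.P361.A00_master

/-- For spin `S = n/2`: the three bounds of Bloch's law. (1) The pressures `p β` exist, they are convex,
and at the scaled field `h = lam / β`, `lam > 0`, the pressure and the magnetization obey the spin wave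
law as `β → ∞`, with the coefficient of Bloch's law recovered as `lam ↓ 0`. (2) `β^(3/2) (S - ∂⁺ p β 0)`
is eventually, as `β → ∞`, above any number below the coefficient `ζ(3/2) / (8 π^(3/2) S^(3/2))` of
Bloch's law. (3) When `β n ≥ 1` the right derivative at `0` is at most `S - (1/50112) (β n)^(-3/2)`. -/
theorem result :
    (∀ n : ℕ, 1 ≤ n → ∃ p : ℝ → ℝ → ℝ,
      (∀ β : ℝ, 0 < β → (∀ h : ℝ, Tendsto (fun N : ℕ => pressureN n N β h) atTop (𝓝 (p β h))) ∧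
        ConvexOn ℝ univ (p β)) ∧
      (∀ lam : ℝ, 0 < lam →
        Tendsto (fun β : ℝ => β ^ (5 / 2 : ℝ)
            * (p β (lam / β) - 3 * ((n : ℝ) / 2) ^ 2 - lam / β * ((n : ℝ) / 2))) atTop
          (𝓝 ((∑' j : ℕ, Real.exp (-(lam * ((j : ℝ) + 1))) / ((j : ℝ) + 1) ^ (5 / 2 : ℝ))
            / (8 * Real.pi ^ (3 / 2 : ℝ) * ((n : ℝ) / 2) ^ (3 / 2 : ℝ)))) ∧
        Tendsto (fun β : ℝ => β ^ (3 / 2 : ℝ)
            * ((n : ℝ) / 2 - derivWithin (p β) (Ioi (lam / β)) (lam / β))) atTop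
          (𝓝 ((∑' j : ℕ, Real.exp (-(lam * ((j : ℝ) + 1))) / ((j : ℝ) + 1) ^ (3 / 2 : ℝ))
            / (8 * Real.pi ^ (3 / 2 : ℝ) * ((n : ℝ) / 2) ^ (3 / 2 : ℝ)))) ∧
        ∀ ε : ℝ, 0 < ε → ∀ᶠ β : ℝ in atTop, ∀ h : ℝ, lam / β ≤ h →
          β ^ (3 / 2 : ℝ) * ((n : ℝ) / 2 - derivWithin (p β) (Ioi h) h)
            ≤ (∑' j : ℕ, Real.exp (-(lam * ((j : ℝ) + 1))) / ((j : ℝ) + 1) ^ (3 / 2 : ℝ))
              / (8 * Real.pi ^ (3 / 2 : ℝ) * ((n : ℝ) / 2) ^ (3 / 2 : ℝ)) + ε) ∧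
      Tendsto (fun lam : ℝ => (∑' j : ℕ, Real.exp (-(lam * ((j : ℝ) + 1))) / ((j : ℝ) + 1) ^ (3 / 2 : ℝ))
            / (8 * Real.pi ^ (3 / 2 : ℝ) * ((n : ℝ) / 2) ^ (3 / 2 : ℝ))) (𝓝[>] 0)
        (𝓝 ((riemannZeta (3 / 2 : ℂ)).re / (8 * Real.pi ^ (3 / 2 : ℝ) * ((n : ℝ) / 2) ^ (3 / 2 : ℝ))))) ∧
    (∀ n : ℕ, 1 ≤ n → ∃ p : ℝ → ℝ → ℝ,
      (∀ β : ℝ, 0 < β → (∀ h : ℝ, Tendsto (fun N : ℕ => pressureN n N β h) atTop (𝓝 (p β h))) ∧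
        ConvexOn ℝ univ (p β) ∧ DifferentiableWithinAt ℝ (p β) (Ioi 0) 0) ∧
      ∀ ε : ℝ, 0 < ε → ∀ᶠ β : ℝ in atTop,
        (riemannZeta (3 / 2 : ℂ)).re / (8 * Real.pi ^ (3 / 2 : ℝ) * ((n : ℝ) / 2) ^ (3 / 2 : ℝ)) - ε
          ≤ β ^ (3 / 2 : ℝ) * ((n : ℝ) / 2 - derivWithin (p β) (Ioi 0) 0)) ∧
    (∀ (n : ℕ) (β : ℝ), 1 ≤ n → 0 < β →
      ∃ p : ℝ → ℝ, (∀ h : ℝ, Tendsto (fun N : ℕ => pressureN n N β h) atTop (𝓝 (p h))) ∧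
        ConvexOn ℝ Set.univ p ∧ DifferentiableWithinAt ℝ p (Set.Ioi 0) 0 ∧
        (1 ≤ β * n →
          derivWithin p (Set.Ioi 0) 0 ≤ (n : ℝ) / 2 - (1 / 50112) * (β * n) ^ (-(3 / 2) : ℝ))) :=
  ⟨Vale.Agent.Results.P361.A_BlochScaledField.result,
    Vale.Agent.Results.P361.A_BlochSharpLowerBound.result,
    Vale.Agent.Results.P361.BlochOneSided.result⟩

end Vale.Agent.Results.P361.A00_master
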