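import Vale.Agent.Lib.P361.SharpB

open Filter Topology Set
open Vale.Agent.P361Lib

/-- For spin `S = n/2`, the pressures `p β` exist and are convex, and at the scaled field
`h = lam / β` with `lam > 0` both the pressure and the magnetization obey the spin wave law in the
limit `β → ∞`: the deficit `β^(3/2) (S - ∂⁺ p β (lam / β))` tends to
`Li_{3/2}(exp (-lam)) / (8 π^(3/2) S^(3/2))`, the deficit at all larger fields is at most this up to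
`ε` for large `β`, the pressure has the corresponding limit with `Li_{5/2}`, and as `lam ↓ 0` the limit
tends to the coefficient of Bloch's law `ζ(3/2) / (8 π^(3/2) S^(3/2))`. -/
theorem Vale.Agent.Results.P361.A_BlochScaledField.result :
    ∀ n : ℕ, 1 ≤ n → ∃ p : ℝ → ℝ → ℝ,
      (∀ β : ℝ, 0 < β → (∀ h : ℝ, Tendsto (fun N : ℕ => pressureN n N β h) atTop (𝓝 (p β h))) ∧
        ConvexOn ℝ univ (p β)) ∧
      (∀ lam : ℝ, 0 < lam →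
        Tendsto (fun β : ℝ => β ^ (5 / 2 : ℝ)
            * (p β (lam / β) - 3 * ((n : ℝ) / 2) ^ 2 - lam / β * ((n : ℝ) / 2))) atTop
          (𝓝 ((∑' j : ℕ, Real.exp (-(lam * ((j : ℝ) + 1))) / ((j : ℝ) + 1) ^ (5 / 2 : ℝ))
            / (8 * Real.pi ^ (3 / 2 : ℝ) * ((n : ℝ) / 2) ^ (3 / 2 : ℝ)))) ∧
        Tendsto (fun β : ℝ => β ^ (3 / 2 : ℝ)
            * ((n : ℝ) / 2 - derivWithin (p β) (Ioi (lam / β)) (lam / β))) atTop
          (𝓝 ((∑' j : ℕ, Real.exp (-(lam * ((j : ℝ) + 1))) / ((j : ℝ) + 1) ^ (3 / 2 : ℝ))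
            / (8 * Real.pi ^ (3 / 2 : ℝ) * ((n : ℝ) / 2) ^ (3 / 2 : ℝ)))) ∧
        ∀ ε : ℝ, 0 < ε → ∀ᶠ β : ℝ in atTop, ∀ h : ℝ, lam / β ≤ h →
          β ^ (3 / 2 : ℝ) * ((n : ℝ) / 2 - derivWithin (p β) (Ioi h) h)
            ≤ (∑' j : ℕ, Real.exp (-(lam * ((j : ℝ) + 1))) / ((j : ℝ) + 1) ^ (3 / 2 : ℝ))
              / (8 * Real.pi ^ (3 / 2 : ℝ) * ((n : ℝ) / 2) ^ (3 / 2 : ℝ)) + ε) ∧
      Tendsto (fun lam : ℝ => (∑' j : ℕ, Real.exp (-(lam * ((j : ℝ) + 1))) / ((j : ℝ) + 1) ^ (3 / 2 : ℝ))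
            / (8 * Real.pi ^ (3 / 2 : ℝ) * ((n : ℝ) / 2) ^ (3 / 2 : ℝ))) (𝓝[>] 0)
        (𝓝 ((riemannZeta (3 / 2 : ℂ)).re / (8 * Real.pi ^ (3 / 2 : ℝ) * ((n : ℝ) / 2) ^ (3 / 2 : ℝ)))) := by
  intro n hn
  obtain ⟨p, hp⟩ := exists_pressure_family n
  have ePsi : ∀ lam : ℝ, (∑' j : ℕ, Real.exp (-(lam * ((j : ℝ) + 1))) / ((j : ℝ) + 1) ^ (3 / 2 : ℝ))
      / (8 * Real.pi ^ (3 / 2 : ℝ) * ((n : ℝ) / 2) ^ (3 / 2 : ℝ)) = Psi n lam := fun lam => by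
    rw [Psi_eq hn]
    unfold Cn
    ring
  have ePhi : ∀ lam : ℝ, (∑' j : ℕ, Real.exp (-(lam * ((j : ℝ) + 1))) / ((j : ℝ) + 1) ^ (5 / 2 : ℝ))
      / (8 * Real.pi ^ (3 / 2 : ℝ) * ((n : ℝ) / 2) ^ (3 / 2 : ℝ)) = Phi n lam := fun lam => by
    rw [Phi_eq hn]
    unfold Cn
    ring
  refine ⟨p, fun β hβ => ⟨hp β hβ, convexOn_limit hβ (hp β hβ)⟩, fun lam hlam => ?_, ?_⟩
  · rw [ePhi, ePsi]
    exact ⟨tendsto_scaled_pressure hn hp hlam, tendsto_deficit hn hp hlam,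
      fun ε hε => eventually_deficit_uniform hn hp hlam hε⟩
  · simp only [ePsi]
    rw [← Psi_zero hn]
    exact Psi_tendsto hn
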