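import Vale.Agent.Lib.P361.Final

open Filter Topology
open Vale.Agent.P361Lib

/-- For spin `S = n/2` and `β` with `β n ≥ 1`: if `p` is the pointwise limit of the finite-volume
pressures, then its right derivative at `0` exists and is at most `S - (1/50112) (β n)^(-3/2)`. -/
theorem Vale.Agent.Results.P361.BlochOneSidedLimit.result :
    ∀ (n : ℕ) (β : ℝ), 1 ≤ n → 0 < β → 1 ≤ β * n → ∀ p : ℝ → ℝ,
      (∀ h : ℝ, Tendsto (fun N : ℕ => pressureN n N β h) atTop (𝓝 (p h))) →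
      DifferentiableWithinAt ℝ p (Set.Ioi 0) 0 ∧
        derivWithin p (Set.Ioi 0) 0 ≤ (n : ℝ) / 2 - (1 / 50112) * (β * n) ^ (-(3 / 2) : ℝ) :=
  fun _ _ hn hβ hnβ _ hp => main_bound hn hβ hnβ hp
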